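import Mathlib.Data.Rat.Defs
import Mathlib.Algebra.Order.Field.Rat
import Mathlib.Data.List.Pairwise

/-!
P113: the interface between the discrete simulation of a machine and the flow.
A finite list of affine maps between rational rectangles of the plane.
-/

namespace Vale.Agent.P113E

/-- `(a, d)` stands for the segment `[a, a + d]`. -/
abbrev Seg : Type := ℚ × ℚ

/-- A product of two segments. -/
abbrev Rect : Type := Seg × Seg

/-- A rule: the domain, the image, and the height (with its margin) at which it is carried out. -/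
abbrev Rule : Type := Rect × Rect × Seg

/-- The segment is nondegenerate and lies in `[0, 1/8]`. -/
def SegOk (s : Seg) : Prop := 0 ≤ s.1 ∧ 0 < s.2 ∧ s.1 + s.2 ≤ 1 / 8

/-- Both sides of the rectangle are nondegenerate and lie in `[0, 1/8]`. -/
def RectOk (r : Rect) : Prop := SegOk r.1 ∧ SegOk r.2

/-- The segment `s` misses the open interval `(a' - d', a' + 2 d')` around `s' = (a', d')`. -/
def SegSep (s s' : Seg) : Prop := s.1 + s.2 ≤ s'.1 - s'.2 ∨ s'.1 + 2 * s'.2 ≤ s.1

/-- The rectangle `r` misses the threefold enlargement of `r'`. -/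
def RectSep (r r' : Rect) : Prop := SegSep r.1 r'.1 ∨ SegSep r.2 r'.2

/-- Membership in a segment. -/
def InSeg (s : Seg) (y : ℚ) : Prop := s.1 ≤ y ∧ y ≤ s.1 + s.2

/-- Membership in a rectangle. -/
def InRect (r : Rect) (p : ℚ × ℚ) : Prop := InSeg r.1 p.1 ∧ InSeg r.2 p.2

/-- The increasing affine map of the segment `s` onto the segment `s'`. -/
def aff (s s' : Seg) (y : ℚ) : ℚ := s'.1 + s'.2 / s.2 * (y - s.1)

/-- The affine map of a rule. -/
def ruleMap (r : Rule) (p : ℚ × ℚ) : ℚ × ℚ := (aff r.1.1 r.2.1.1 p.1, aff r.1.2 r.2.1.2 p.2)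

/-- One step of the piecewise affine map. -/
def Step (rules : List Rule) (p q : ℚ × ℚ) : Prop :=
  ∃ r ∈ rules, InRect r.1 p ∧ q = ruleMap r p

/-- The point lies in a halting rectangle. -/
def Halted (halts : List Rect) (p : ℚ × ℚ) : Prop := ∃ h ∈ halts, InRect h p

/-- The separation properties of the rules and of the halting rectangles. -/
structure Good (rules : List Rule) (halts : List Rect) : Prop where
  dom_ok : ∀ r ∈ rules, RectOk r.1
  img_ok : ∀ r ∈ rules, RectOk r.2.1
  ht_ok : ∀ r ∈ rules, SegOk r.2.2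
  halt_ok : ∀ h ∈ halts, RectOk h
  dom_sep : rules.Pairwise fun r r' => RectSep r.1 r'.1 ∧ RectSep r'.1 r.1
  halt_sep : halts.Pairwise fun h h' => RectSep h h' ∧ RectSep h' h
  dom_halt_sep : ∀ r ∈ rules, ∀ h ∈ halts, RectSep r.1 h ∧ RectSep h r.1
  img_sep : rules.Pairwise fun r r' => RectSep r.2.1 r'.2.1 ∧ RectSep r'.2.1 r.2.1
  ht_sep : rules.Pairwise fun r r' => SegSep r.2.2 r'.2.2 ∧ SegSep r'.2.2 r.2.2

end Vale.Agent.P113E
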