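import Vale.Agent.P113E.Ode
import Vale.Agent.P113E.Iface
import Mathlib.Analysis.SpecialFunctions.ExpDeriv
import Mathlib.Analysis.SpecialFunctions.Log.Basic
import Mathlib.Analysis.Calculus.Deriv.Pi

/-!
P113: the trajectory of a field that carries out the rules, one rule in each period.
-/

open Set Function

namespace Vale.Agent.P113E

/-- The `m`-th time slot. -/
def slot (m : ℕ) : Set ℝ := Icc ((m : ℝ) / 5) (((m : ℝ) + 1) / 5)

/-- `Θ` increases from `0` to `1` in the slot `m`, with the speed `θ`. -/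
structure Clock (θ Θ : ℝ → ℝ) (m : ℕ) : Prop where
  deriv : ∀ t, HasDerivAt Θ (θ t) t
  start : Θ ((m : ℝ) / 5) = 0
  stop : Θ (((m : ℝ) + 1) / 5) = 1
  nonneg : ∀ t, 0 ≤ Θ t
  le_one : ∀ t, Θ t ≤ 1

/-- What the field does at the points that matter. -/
structure Drives (u : ℝ → (Fin 3 → ℝ) → Fin 3 → ℝ) (rules : List Rule) (halts : List Rect)
    (β γ : ℚ) (θ Θ : ℕ → ℝ → ℝ) : Prop where
  clock : ∀ m, Clock (θ m) (Θ m) m
  load : ∀ t ∈ slot 0, ∀ x, u t x = ![0, θ 0 t * β, θ 0 t * γ]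
  idle : ∀ n, ∀ t ∈ slot (5 * n + 5), ∀ x, u t x = 0
  lift : ∀ n, ∀ t ∈ slot (5 * n + 1), ∀ r ∈ rules, ∀ p, InRect r.1 p → ∀ x : ℝ,
    u t ![x, p.1, p.2] = ![θ (5 * n + 1) t * r.2.2.1, 0, 0]
  liftH : ∀ n, ∀ t ∈ slot (5 * n + 1), ∀ h ∈ halts, ∀ p, InRect h p → ∀ x : ℝ,
    u t ![x, p.1, p.2] = ![θ (5 * n + 1) t * (1 / 2), 0, 0]
  scale : ∀ n, ∀ t ∈ slot (5 * n + 2), ∀ r ∈ rules, ∀ y ∈ Icc (0 : ℝ) (1 / 4),
    ∀ z ∈ Icc (0 : ℝ) (1 / 4), u t ![r.2.2.1, y, z] =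
      ![0, θ (5 * n + 2) t * (Real.log ((r.2.1.1.2 / r.1.1.2 : ℚ) : ℝ) * (y - r.1.1.1)),
        θ (5 * n + 2) t * (Real.log ((r.2.1.2.2 / r.1.2.2 : ℚ) : ℝ) * (z - r.1.2.1))]
  move : ∀ n, ∀ t ∈ slot (5 * n + 3), ∀ r ∈ rules, ∀ y z : ℝ, u t ![r.2.2.1, y, z] =
      ![0, θ (5 * n + 3) t * ((r.2.1.1.1 - r.1.1.1 : ℚ) : ℝ),
        θ (5 * n + 3) t * ((r.2.1.2.1 - r.1.2.1 : ℚ) : ℝ)]
  drop : ∀ n, ∀ t ∈ slot (5 * n + 4), ∀ r ∈ rules, ∀ p, InRect r.2.1 p → ∀ x : ℝ,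
    u t ![x, p.1, p.2] = ![θ (5 * n + 4) t * (-r.2.2.1), 0, 0]

theorem hasDerivAt_vec {f g h : ℝ → ℝ} {a b c t : ℝ} (hf : HasDerivAt f a t)
    (hg : HasDerivAt g b t) (hh : HasDerivAt h c t) :
    HasDerivAt (fun s => ![f s, g s, h s]) ![a, b, c] t := by
  rw [hasDerivAt_pi]
  intro i
  fin_cases i
  · exact hf
  · exact hg
  · exact hh

theorem slot_nonneg (m : ℕ) : (0 : ℝ) ≤ (m : ℝ) / 5 := by positivity

theorem slot_stop (m : ℕ) : ((m : ℝ) + 1) / 5 ∈ slot m := ⟨by linarith, le_rfl⟩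

theorem aff_mem {s s' : Seg} (hs : SegOk s) (hs' : SegOk s') {y : ℚ} (hy : InSeg s y) :
    InSeg s' (aff s s' y) := by
  have h1 : 0 ≤ s'.2 / s.2 := (div_pos hs'.2.1 hs.2.1).le
  refine ⟨le_add_of_nonneg_right (mul_nonneg h1 (sub_nonneg.2 hy.1)), ?_⟩
  have h2 : s'.2 / s.2 * (y - s.1) ≤ s'.2 / s.2 * s.2 :=
    mul_le_mul_of_nonneg_left (by linarith [hy.2]) h1
  rw [div_mul_cancel₀ _ hs.2.1.ne'] at h2
  simp only [aff]
  linarith

theorem inSeg_mem {s : Seg} (hs : SegOk s) {y : ℚ} (hy : InSeg s y) :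
    (y : ℝ) ∈ Icc (0 : ℝ) (1 / 8) := by
  refine ⟨by exact_mod_cast hs.1.trans hy.1, ?_⟩
  have := (Rat.cast_le (K := ℝ)).2 (hy.2.trans hs.2.2)
  push_cast at this
  exact this

/-- The scaled point stays in `[0, 1/4]`. -/
theorem scaled_mem {s s' : Seg} (hs : SegOk s) (hs' : SegOk s') {y : ℚ} (hy : InSeg s y) {τ : ℝ}
    (h0 : 0 ≤ τ) (h1 : τ ≤ 1) :
    (s.1 : ℝ) + Real.exp (Real.log ((s'.2 / s.2 : ℚ) : ℝ) * τ) * ((y : ℝ) - s.1) ∈
      Icc (0 : ℝ) (1 / 4) := by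
  have ha : (0 : ℝ) ≤ s.1 := by exact_mod_cast hs.1
  have hd : (0 : ℝ) < s.2 := by exact_mod_cast hs.2.1
  have had : (s.1 : ℝ) + s.2 ≤ 1 / 8 := by
    have := (Rat.cast_le (K := ℝ)).2 hs.2.2
    push_cast at this
    exact this
  have ha' : (0 : ℝ) ≤ s'.1 := by exact_mod_cast hs'.1
  have hd' : (0 : ℝ) < s'.2 := by exact_mod_cast hs'.2.1
  have had' : (s'.1 : ℝ) + s'.2 ≤ 1 / 8 := by
    have := (Rat.cast_le (K := ℝ)).2 hs'.2.2
    push_cast at this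
    exact this
  have hy1 : (s.1 : ℝ) ≤ y := by exact_mod_cast hy.1
  have hy2 : (y : ℝ) ≤ s.1 + s.2 := by exact_mod_cast hy.2
  have hq : (0 : ℝ) < (s'.2 : ℝ) / s.2 := div_pos hd' hd
  refine ⟨add_nonneg ha (mul_nonneg (Real.exp_pos _).le (sub_nonneg.2 hy1)), ?_⟩
  push_cast
  have he : Real.exp (Real.log ((s'.2 : ℝ) / s.2) * τ) * s.2 ≤ 1 / 8 := by
    rcases le_total (Real.log ((s'.2 : ℝ) / s.2)) 0 with hl | hl
    · have : Real.exp (Real.log ((s'.2 : ℝ) / s.2) * τ) ≤ 1 :=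
        Real.exp_le_one_iff.2 (mul_nonpos_of_nonpos_of_nonneg hl h0)
      nlinarith
    · have : Real.exp (Real.log ((s'.2 : ℝ) / s.2) * τ) ≤ (s'.2 : ℝ) / s.2 := by
        conv_rhs => rw [← Real.exp_log hq]
        exact Real.exp_le_exp.2 (mul_le_of_le_one_right hl h1)
      have h3 := mul_le_mul_of_nonneg_right this hd.le
      rw [div_mul_cancel₀ _ hd.ne'] at h3
      linarith
  have h4 : Real.exp (Real.log ((s'.2 : ℝ) / s.2) * τ) * ((y : ℝ) - s.1) ≤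
      Real.exp (Real.log ((s'.2 : ℝ) / s.2) * τ) * s.2 :=
    mul_le_mul_of_nonneg_left (by linarith) (Real.exp_pos _).le
  linarith

variable {u : ℝ → (Fin 3 → ℝ) → Fin 3 → ℝ} {rules : List Rule} {halts : List Rect} {β γ : ℚ}
  {θ Θ : ℕ → ℝ → ℝ} {X : ℝ → Fin 3 → ℝ}

/-- A vertical motion in a slot. -/
theorem vertical (hu : Nice u) (hX : ∀ t, 0 ≤ t → HasDerivWithinAt X (u t (X t)) (Ici 0) t)
    {m : ℕ} {θ Θ : ℝ → ℝ} (hc : Clock θ Θ m) {x y z c : ℝ}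
    (hv : ∀ t ∈ slot m, ∀ w : ℝ, u t ![w, y, z] = ![θ t * c, 0, 0])
    (h0 : X ((m : ℝ) / 5) = ![x, y, z]) : ∀ t ∈ slot m, X t = ![x + Θ t * c, y, z] := by
  refine hu.eq_explicit hX (Y := fun t => ![x + Θ t * c, y, z]) (slot_nonneg m)
    (fun t ht => ?_) (by rw [h0, hc.start]; simp)
  rw [hv t ht]
  exact hasDerivAt_vec (((hc.deriv t).mul_const c).const_add x) (hasDerivAt_const t y)
    (hasDerivAt_const t z)

/-- A horizontal translation in a slot. -/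
theorem horizontal (hu : Nice u) (hX : ∀ t, 0 ≤ t → HasDerivWithinAt X (u t (X t)) (Ici 0) t)
    {m : ℕ} {θ Θ : ℝ → ℝ} (hc : Clock θ Θ m) {x y z b c : ℝ}
    (hv : ∀ t ∈ slot m, ∀ v w : ℝ, u t ![x, v, w] = ![0, θ t * b, θ t * c])
    (h0 : X ((m : ℝ) / 5) = ![x, y, z]) :
    ∀ t ∈ slot m, X t = ![x, y + Θ t * b, z + Θ t * c] := by
  refine hu.eq_explicit hX (Y := fun t => ![x, y + Θ t * b, z + Θ t * c]) (slot_nonneg m)
    (fun t ht => ?_) (by rw [h0, hc.start]; simp)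
  rw [hv t ht]
  exact hasDerivAt_vec (hasDerivAt_const t x) (((hc.deriv t).mul_const b).const_add y)
    (((hc.deriv t).mul_const c).const_add z)

/-- A dilation in a slot. -/
theorem dilation (hu : Nice u) (hX : ∀ t, 0 ≤ t → HasDerivWithinAt X (u t (X t)) (Ici 0) t)
    {m : ℕ} {θ Θ : ℝ → ℝ} (hc : Clock θ Θ m) {x y z y₀ z₀ b c : ℝ}
    (hv : ∀ t ∈ slot m, ∀ v ∈ Icc (0 : ℝ) (1 / 4), ∀ w ∈ Icc (0 : ℝ) (1 / 4),
      u t ![x, v, w] = ![0, θ t * (b * (v - y₀)), θ t * (c * (w - z₀))])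
    (hy : ∀ τ, 0 ≤ τ → τ ≤ 1 → y₀ + Real.exp (b * τ) * (y - y₀) ∈ Icc (0 : ℝ) (1 / 4))
    (hz : ∀ τ, 0 ≤ τ → τ ≤ 1 → z₀ + Real.exp (c * τ) * (z - z₀) ∈ Icc (0 : ℝ) (1 / 4))
    (h0 : X ((m : ℝ) / 5) = ![x, y, z]) :
    ∀ t ∈ slot m, X t =
      ![x, y₀ + Real.exp (b * Θ t) * (y - y₀), z₀ + Real.exp (c * Θ t) * (z - z₀)] := by
  refine hu.eq_explicit hX (Y := fun t =>
    ![x, y₀ + Real.exp (b * Θ t) * (y - y₀), z₀ + Real.exp (c * Θ t) * (z - z₀)]) (slot_nonneg m)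
    (fun t ht => ?_) (by rw [h0, hc.start]; simp)
  rw [hv t ht _ (hy _ (hc.nonneg t) (hc.le_one t)) _ (hz _ (hc.nonneg t) (hc.le_one t))]
  refine hasDerivAt_vec (hasDerivAt_const t x) ?_ ?_
  · exact (((((hc.deriv t).const_mul b).exp).mul_const (y - y₀)).const_add y₀).congr_deriv
      (by ring)
  · exact (((((hc.deriv t).const_mul c).exp).mul_const (z - z₀)).const_add z₀).congr_deriv
      (by ring)

/-- One period. -/
theorem period (hu : Nice u) (hG : Good rules halts) (hD : Drives u rules halts β γ θ Θ)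
    (hX : ∀ t, 0 ≤ t → HasDerivWithinAt X (u t (X t)) (Ici 0) t) (n : ℕ) {p q : ℚ × ℚ}
    (hpq : Step rules p q) (h0 : X (n + 1 / 5) = ![0, (p.1 : ℝ), (p.2 : ℝ)]) :
    X ((n + 1 : ℕ) + 1 / 5) = ![0, (q.1 : ℝ), (q.2 : ℝ)] ∧
      ∀ t ∈ Icc ((n : ℝ) + 1 / 5) ((n + 1 : ℕ) + 1 / 5), X t 0 ∈ Icc (0 : ℝ) (1 / 8) := by
  obtain ⟨r, hr, hp, rfl⟩ := hpq
  have hd := hG.dom_ok r hr
  have hi := hG.img_ok r hr
  have hh := hG.ht_ok r hr
  have hh0 : (0 : ℝ) ≤ r.2.2.1 := by exact_mod_cast hh.1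
  have hh1 : (r.2.2.1 : ℝ) ≤ 1 / 8 := by
    have h : r.2.2.1 ≤ 1 / 8 := by linarith [hh.2.1, hh.2.2]
    have := (Rat.cast_le (K := ℝ)).2 h
    push_cast at this
    exact this
  have e1 : (((5 * n + 1 : ℕ) : ℝ)) / 5 = n + 1 / 5 := by push_cast; ring
  have e2 : (((5 * n + 2 : ℕ) : ℝ)) / 5 = (((5 * n + 1 : ℕ) : ℝ) + 1) / 5 := by push_cast; ring
  have e3 : (((5 * n + 3 : ℕ) : ℝ)) / 5 = (((5 * n + 2 : ℕ) : ℝ) + 1) / 5 := by push_cast; ring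
  have e4 : (((5 * n + 4 : ℕ) : ℝ)) / 5 = (((5 * n + 3 : ℕ) : ℝ) + 1) / 5 := by push_cast; ring
  have e5 : (((5 * n + 5 : ℕ) : ℝ)) / 5 = (((5 * n + 4 : ℕ) : ℝ) + 1) / 5 := by push_cast; ring
  have e6 : (((5 * n + 5 : ℕ) : ℝ) + 1) / 5 = ((n + 1 : ℕ) : ℝ) + 1 / 5 := by push_cast; ring
  have s1 := vertical hu hX (hD.clock (5 * n + 1)) (fun t ht w => hD.lift n t ht r hr p hp w)
    (by rw [e1]; exact h0)
  have t1 := s1 _ (slot_stop _)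
  rw [(hD.clock _).stop, ← e2, zero_add, one_mul] at t1
  have s2 := dilation hu hX (hD.clock (5 * n + 2))
    (fun t ht v hv w hw => hD.scale n t ht r hr v hv w hw)
    (fun τ => scaled_mem hd.1 hi.1 hp.1) (fun τ => scaled_mem hd.2 hi.2 hp.2) t1
  have t2 := s2 _ (slot_stop _)
  have q1 : (0 : ℝ) < ((r.2.1.1.2 / r.1.1.2 : ℚ) : ℝ) := by
    exact_mod_cast div_pos hi.1.2.1 hd.1.2.1
  have q2 : (0 : ℝ) < ((r.2.1.2.2 / r.1.2.2 : ℚ) : ℝ) := by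
    exact_mod_cast div_pos hi.2.2.1 hd.2.2.1
  rw [(hD.clock _).stop, ← e3, mul_one, mul_one, Real.exp_log q1, Real.exp_log q2] at t2
  have s3 := horizontal hu hX (hD.clock (5 * n + 3)) (fun t ht v w => hD.move n t ht r hr v w) t2
  have t3 := s3 _ (slot_stop _)
  rw [(hD.clock _).stop, ← e4, one_mul, one_mul] at t3
  have t3' : X ((((5 * n + 4 : ℕ) : ℝ)) / 5) =
      ![(r.2.2.1 : ℝ), ((ruleMap r p).1 : ℝ), ((ruleMap r p).2 : ℝ)] := by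
    rw [t3]
    simp only [ruleMap, aff]
    push_cast
    congr 2
    · ring
    · congr 1
      ring
  have hq : InRect r.2.1 (ruleMap r p) := ⟨aff_mem hd.1 hi.1 hp.1, aff_mem hd.2 hi.2 hp.2⟩
  have s4 := vertical hu hX (hD.clock (5 * n + 4)) (fun t ht w => hD.drop n t ht r hr _ hq w) t3'
  have t4 := s4 _ (slot_stop _)
  rw [(hD.clock _).stop, ← e5, one_mul, add_neg_cancel] at t4
  have s5 := vertical hu hX (hD.clock (5 * n + 5)) (c := 0)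
    (fun t ht w => by rw [hD.idle n t ht]; funext i; fin_cases i <;> simp) t4
  refine ⟨?_, fun t ht => ?_⟩
  · rw [← e6, s5 _ (slot_stop _)]
    simp
  · rcases le_total t ((((5 * n + 1 : ℕ) : ℝ) + 1) / 5) with a1 | a1
    · rw [s1 t ⟨by rw [e1]; exact ht.1, a1⟩]
      have := (hD.clock (5 * n + 1)).nonneg t
      have := (hD.clock (5 * n + 1)).le_one t
      simp only [Matrix.cons_val_zero, zero_add]
      constructor <;> nlinarith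
    rcases le_total t ((((5 * n + 2 : ℕ) : ℝ) + 1) / 5) with a2 | a2
    · rw [s2 t ⟨by rw [e2]; exact a1, a2⟩]
      exact ⟨hh0, hh1⟩
    rcases le_total t ((((5 * n + 3 : ℕ) : ℝ) + 1) / 5) with a3 | a3
    · rw [s3 t ⟨by rw [e3]; exact a2, a3⟩]
      exact ⟨hh0, hh1⟩
    rcases le_total t ((((5 * n + 4 : ℕ) : ℝ) + 1) / 5) with a4 | a4
    · rw [s4 t ⟨by rw [e4]; exact a3, a4⟩]
      have := (hD.clock (5 * n + 4)).nonneg t
      have := (hD.clock (5 * n + 4)).le_one t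
      simp only [Matrix.cons_val_zero]
      constructor <;> nlinarith
    · rw [s5 t ⟨by rw [e5]; exact a4, by rw [e6]; exact ht.2⟩]
      simp

theorem loaded (hu : Nice u) (hD : Drives u rules halts β γ θ Θ)
    (hX : ∀ t, 0 ≤ t → HasDerivWithinAt X (u t (X t)) (Ici 0) t) (h0 : X 0 = 0) :
    X ((0 : ℕ) + 1 / 5) = ![0, (β : ℝ), (γ : ℝ)] ∧ ∀ t ∈ Icc (0 : ℝ) (1 / 5), X t 0 = 0 := by
  have s0 := horizontal hu hX (hD.clock 0) (x := 0) (y := 0) (z := 0)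
    (fun t ht v w => hD.load t ht _)
    (by rw [Nat.cast_zero, zero_div, h0]; funext i; fin_cases i <;> simp)
  refine ⟨?_, fun t ht => ?_⟩
  · have t0 := s0 _ (slot_stop _)
    rw [(hD.clock _).stop] at t0
    simpa using t0
  · rw [s0 t (by simpa [slot] using ht)]
    rfl

theorem at_period (hu : Nice u) (hG : Good rules halts) (hD : Drives u rules halts β γ θ Θ)
    (hX : ∀ t, 0 ≤ t → HasDerivWithinAt X (u t (X t)) (Ici 0) t) (h0 : X 0 = 0)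
    {p : ℕ → ℚ × ℚ} (hp : p 0 = (β, γ)) (N : ℕ) (hs : ∀ n, n < N → Step rules (p n) (p (n + 1))) :
    X (N + 1 / 5) = ![0, ((p N).1 : ℝ), ((p N).2 : ℝ)] := by
  induction N with
  | zero => rw [hp]; exact (loaded hu hD hX h0).1
  | succ N ih =>
    exact (period hu hG hD hX N (hs N N.lt_succ_self)
      (ih fun n hn => hs n (hn.trans N.lt_succ_self))).1

/-- If the orbit never stops then the height stays in `[0, 1/8]`. -/
theorem low_of_orbit (hu : Nice u) (hG : Good rules halts) (hD : Drives u rules halts β γ θ Θ)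
    (hX : ∀ t, 0 ≤ t → HasDerivWithinAt X (u t (X t)) (Ici 0) t) (h0 : X 0 = 0)
    {p : ℕ → ℚ × ℚ} (hp : p 0 = (β, γ)) (hs : ∀ n, Step rules (p n) (p (n + 1))) :
    ∀ t, 0 ≤ t → X t 0 ∈ Icc (0 : ℝ) (1 / 8) := by
  intro t ht
  rcases le_total t (1 / 5) with h | h
  · rw [(loaded hu hD hX h0).2 t ⟨ht, h⟩]
    norm_num
  · refine (period hu hG hD hX ⌊t - 1 / 5⌋₊ (hs _)
      (at_period hu hG hD hX h0 hp _ fun n _ => hs n)).2 t ⟨?_, ?_⟩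
    · linarith [Nat.floor_le (sub_nonneg.2 h)]
    · push_cast
      linarith [Nat.lt_floor_add_one (t - 1 / 5)]

/-- If the orbit reaches a halting rectangle then the height reaches `1/2`. -/
theorem high_of_halt (hu : Nice u) (hG : Good rules halts) (hD : Drives u rules halts β γ θ Θ)
    (hX : ∀ t, 0 ≤ t → HasDerivWithinAt X (u t (X t)) (Ici 0) t) (h0 : X 0 = 0)
    {p : ℕ → ℚ × ℚ} (hp : p 0 = (β, γ)) (N : ℕ) (hs : ∀ n, n < N → Step rules (p n) (p (n + 1)))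
    (hN : Halted halts (p N)) : ∃ t, 0 ≤ t ∧ X t 0 = 1 / 2 ∧ X t 1 ∈ Icc (0 : ℝ) (1 / 8) ∧
      X t 2 ∈ Icc (0 : ℝ) (1 / 8) := by
  obtain ⟨h, hh, hm⟩ := hN
  have e1 : (((5 * N + 1 : ℕ) : ℝ)) / 5 = N + 1 / 5 := by push_cast; ring
  have s1 := vertical hu hX (hD.clock (5 * N + 1)) (fun t ht w => hD.liftH N t ht h hh _ hm w)
    (by rw [e1]; exact at_period hu hG hD hX h0 hp N hs)
  refine ⟨(((5 * N + 1 : ℕ) : ℝ) + 1) / 5, by positivity, ?_⟩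
  rw [s1 _ (slot_stop _), (hD.clock _).stop]
  exact ⟨by simp, inSeg_mem (hG.halt_ok h hh).1 hm.1, inSeg_mem (hG.halt_ok h hh).2 hm.2⟩

/-- A height in `[0, 1/8]` is not in `(3/8, 5/8)` modulo one. -/
theorem low_not_high {x : ℝ} (hx : x ∈ Icc (0 : ℝ) (1 / 8)) (m : ℤ) :
    ¬(3 / 8 < x + m ∧ x + m < 5 / 8) := by
  rintro ⟨h1, h2⟩
  have h3 : (0 : ℝ) < m := by linarith [hx.2]
  have h4 : (m : ℝ) < 1 := by linarith [hx.1]
  have h5 : (0 : ℤ) < m := by exact_mod_cast h3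
  have h6 : m < 1 := by exact_mod_cast h4
  omega

end Vale.Agent.P113E
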