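import Vale.Agent.P113B.Ops0
import Vale.Agent.P113E.Iface

/-!
P113: the velocity field that carries out a list of rules, as lists of terms.
-/

namespace Vale.Agent.P113E

open Vale.Agent.P113B

/-- The bump `y ^ k * π₄ (2 y / d - (2 a / d - 1))`; the second factor is `κ` on `[a, a + d]`
and vanishes outside `(a - d, a + 2 d)`. -/
def plB (k : ℕ) (s : Seg) : Bump := (k, Sum.inr 4, 2 / s.2, 2 * s.1 / s.2 - 1)

/-- The bump `ρ (10 t - (2 k + 1))`, which vanishes outside `(k / 5, (k + 1) / 5)`. -/
def thB (k : ℕ) : Bump := (0, Sum.inl 0, 10, 2 * (k : ℚ) + 1)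

/-- One factor, in the variable number `j`. -/
def only (j : Fin 3) (g : Bump) : Fin 3 → List Bump := fun i => if i = j then [g] else []

/-- The plateau function of the segment `s`, in the variable number `j`. -/
def flatL (j : Fin 3) (s : Seg) : List Term := [((1, 0, -1, []), [], only j (plB 0 s))]

/-- The plateau function of the segment `s` times `y - c`, in the variable number `j`. -/
def linL (j : Fin 3) (c : ℚ) (s : Seg) : List Term :=
  [((1, 0, -1, []), [], only j (plB 1 s)), ((-c, 0, -1, []), [], only j (plB 0 s))]

/-- The speed of the clock number `k` (periodized if `b`), times `q` and the logarithms of `rs`. -/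
def timeL (b : Bool) (k : ℕ) (q : ℚ) (rs : List ℚ) : List Term :=
  [((10 * q, 0, -1, rs), [(b, thB k)], fun _ => [])]

/-- The vertical motion by `c` over the rectangle `R` in the slot `k`. -/
def vertL (k : ℕ) (c : ℚ) (R : Rect) : List Term :=
  mulL (timeL true k c []) (mulL (flatL 1 R.1) (flatL 2 R.2))

/-- The stream function of the dilation with ratio `a` and center `c` of the variable number `j`,
in the layer `h`. -/
def psiL (j : Fin 3) (a c : ℚ) (h : Seg) : List Term :=
  mulL (timeL true 2 1 [a]) (mulL (linL 0 h.1 h) (linL j c (0, 1 / 4)))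

/-- The horizontal motion by `c` in the layer `h`. -/
def moveL (c : ℚ) (h : Seg) : List Term := mulL (timeL true 3 c []) (flatL 0 h)

/-- The stream function in the plane of the variables `0, 1`. -/
def psi1 (rules : List Rule) : List Term :=
  rules.flatMap fun r => psiL 1 (r.2.1.1.2 / r.1.1.2) r.1.1.1 r.2.2

/-- The stream function in the plane of the variables `0, 2`. -/
def psi2 (rules : List Rule) : List Term :=
  rules.flatMap fun r => psiL 2 (r.2.1.2.2 / r.1.2.2) r.1.2.1 r.2.2

/-- The vertical component of the periodic field. -/
def uPer0 (rules : List Rule) (halts : List Rect) : List Term :=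
  (rules.flatMap fun r => vertL 1 r.2.2.1 r.1) ++ (halts.flatMap fun h => vertL 1 (1 / 2) h) ++
    (rules.flatMap fun r => vertL 4 (-r.2.2.1) r.2.1) ++
    scaleL (-1) (dxL 1 (psi1 rules) ++ dxL 2 (psi2 rules))

/-- The first horizontal component of the periodic field. -/
def uPer1 (rules : List Rule) : List Term :=
  dxL 0 (psi1 rules) ++ rules.flatMap fun r => moveL (r.2.1.1.1 - r.1.1.1) r.2.2

/-- The second horizontal component of the periodic field. -/
def uPer2 (rules : List Rule) : List Term :=
  dxL 0 (psi2 rules) ++ rules.flatMap fun r => moveL (r.2.1.2.1 - r.1.2.1) r.2.2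

/-- The periodic field. -/
def uPer (rules : List Rule) (halts : List Rect) : Fin 3 → List Term := fun i =>
  if i = 0 then uPer0 rules halts else if i = 1 then uPer1 rules else uPer2 rules

/-- The loading field: a translation by `(0, β, γ)` in the first slot. -/
def uLoad (β γ : ℚ) : Fin 3 → List Term := fun i =>
  if i = 0 then [] else if i = 1 then timeL false 0 β [] else timeL false 0 γ []

/-- The whole velocity field. -/
def uAll (rules : List Rule) (halts : List Rect) (β γ : ℚ) : Fin 3 → List Term := fun i =>
  uPer rules halts i ++ uLoad β γ i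

/-- The force. -/
def force (rules : List Rule) (halts : List Rect) (β γ : ℚ) : Fin 3 → List Term := fun i =>
  nsL (uPer rules halts) i ++ dtL (uLoad β γ i)

end Vale.Agent.P113E
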