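import Vale.Agent.P113E.OneDim
import Vale.Agent.P113B.Adm
import Vale.Agent.P113.Iface2

/-!
P113: the field which carries out a finite system of affine rules.
-/

open Set Function Filter Topology
open scoped ContDiff

noncomputable section

namespace Vale.Agent.P113E

open Vale.Agent.P113

/-- The logarithm of the ratio in the first horizontal direction. -/
def la (r : Rule) : ℝ := Real.log ((r.2.1.1.2 / r.1.1.2 : ℚ) : ℝ)

/-- The logarithm of the ratio in the second horizontal direction. -/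
def lc (r : Rule) : ℝ := Real.log ((r.2.1.2.2 / r.1.2.2 : ℚ) : ℝ)

/-- The vertical component of the field of a rule. -/
def F0 (r : Rule) (t x y z : ℝ) : ℝ :=
  TH 1 t * (r.2.2.1 * (PL r.1.1 y * PL r.1.2 z)) -
    TH 4 t * (r.2.2.1 * (PL r.2.1.1 y * PL r.2.1.2 z)) -
    TH 2 t * (LN r.2.2.1 r.2.2 x *
      (la r * deriv (LN r.1.1.1 (0, 1 / 4)) y + lc r * deriv (LN r.1.2.1 (0, 1 / 4)) z))

/-- A horizontal component of the field of a rule. -/
def FH (h : Seg) (l : ℝ) (c e : ℚ) (t x y : ℝ) : ℝ :=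
  TH 2 t * (deriv (LN h.1 h) x * (l * LN c (0, 1 / 4) y)) + TH 3 t * (e * PL h x)

/-- The vertical component of the field of a halting rectangle. -/
def G0 (h : Rect) (t y z : ℝ) : ℝ := TH 1 t * (((1 / 2 : ℚ) : ℝ) * (PL h.1 y * PL h.2 z))

/-- The vertical component of the periodic field. -/
def U0 (rules : List Rule) (halts : List Rect) : Fn := fun t x =>
  (rules.map fun r => F0 r t (x 0) (x 1) (x 2)).sum + (halts.map fun h => G0 h t (x 1) (x 2)).sum

/-- The first horizontal component of the periodic field. -/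
def U1 (rules : List Rule) : Fn := fun t x =>
  (rules.map fun r => FH r.2.2 (la r) r.1.1.1 (r.2.1.1.1 - r.1.1.1) t (x 0) (x 1)).sum

/-- The second horizontal component of the periodic field. -/
def U2 (rules : List Rule) : Fn := fun t x =>
  (rules.map fun r => FH r.2.2 (lc r) r.1.2.1 (r.2.1.2.1 - r.1.2.1) t (x 0) (x 2)).sum

/-- The periodic field. -/
def UU (rules : List Rule) (halts : List Rect) : Fin 3 → Fn := ![U0 rules halts, U1 rules, U2 rules]

theorem adm_TH (k : ℕ) : (fun t _ => TH k t : Fn) ∈ Adm := by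
  have h := adm_mul (adm_mul (adm_rat 10) adm_kinv) (adm_per_t (pulse_valid k))
  simpa only [Rat.cast_ofNat, TH] using h

theorem adm_PL {s : Seg} (hs : 0 < s.2) (j : Fin 3) : (fun _ x => PL s (x j) : Fn) ∈ Adm :=
  adm_mul adm_kinv (adm_per_x (plateau_valid 0 hs) j)

theorem adm_LN (c : ℚ) {s : Seg} (hs : 0 < s.2) (j : Fin 3) :
    (fun _ x => LN c s (x j) : Fn) ∈ Adm :=
  adm_sub (adm_mul adm_kinv (adm_per_x (plateau_valid 1 hs) j)) (adm_mul (adm_rat c) (adm_PL hs j))

theorem adm_dLN (c : ℚ) {s : Seg} (hs : 0 < s.2) (j : Fin 3) :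
    (fun _ x => deriv (LN c s) (x j) : Fn) ∈ Adm := by
  have h := (admCalc _ (adm_LN c hs j)).2.2.2.2 j
  have h2 : dx j (fun _ x => LN c s (x j)) = fun _ x => deriv (LN c s) (x j) := by
    funext t x
    simp only [dx, update_self]
  rwa [h2] at h

theorem box_pos : (0 : ℚ) < ((0, 1 / 4) : Seg).2 := by norm_num

variable {rules : List Rule} {halts : List Rect}

theorem adm_UU (hG : Good rules halts) (i : Fin 3) : UU rules halts i ∈ Adm := by
  have hla : ∀ r ∈ rules, (fun _ _ => la r : Fn) ∈ Adm := fun r hr =>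
    adm_log (div_pos (hG.img_ok r hr).1.2.1 (hG.dom_ok r hr).1.2.1)
  have hlc : ∀ r ∈ rules, (fun _ _ => lc r : Fn) ∈ Adm := fun r hr =>
    adm_log (div_pos (hG.img_ok r hr).2.2.1 (hG.dom_ok r hr).2.2.1)
  fin_cases i
  · refine adm_add (adm_listSum rules (fun r t x => F0 r t (x 0) (x 1) (x 2)) fun r hr => ?_)
      (adm_listSum halts (fun h t x => G0 h t (x 1) (x 2)) fun h hh => ?_)
    · exact adm_sub (adm_sub
        (adm_mul (adm_TH 1) (adm_mul (adm_rat _)
          (adm_mul (adm_PL (hG.dom_ok r hr).1.2.1 1) (adm_PL (hG.dom_ok r hr).2.2.1 2))))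
        (adm_mul (adm_TH 4) (adm_mul (adm_rat _)
          (adm_mul (adm_PL (hG.img_ok r hr).1.2.1 1) (adm_PL (hG.img_ok r hr).2.2.1 2)))))
        (adm_mul (adm_TH 2) (adm_mul (adm_LN _ (hG.ht_ok r hr).2.1 0)
          (adm_add (adm_mul (hla r hr) (adm_dLN _ box_pos 1))
            (adm_mul (hlc r hr) (adm_dLN _ box_pos 2)))))
    · exact adm_mul (adm_TH 1) (adm_mul (adm_rat _)
        (adm_mul (adm_PL (hG.halt_ok h hh).1.2.1 1) (adm_PL (hG.halt_ok h hh).2.2.1 2)))
  · refine adm_listSum rules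
      (fun r t x => FH r.2.2 (la r) r.1.1.1 (r.2.1.1.1 - r.1.1.1) t (x 0) (x 1)) fun r hr => ?_
    exact adm_add (adm_mul (adm_TH 2) (adm_mul (adm_dLN _ (hG.ht_ok r hr).2.1 0)
      (adm_mul (hla r hr) (adm_LN _ box_pos 1))))
      (adm_mul (adm_TH 3) (adm_mul (adm_rat _) (adm_PL (hG.ht_ok r hr).2.1 0)))
  · refine adm_listSum rules
      (fun r t x => FH r.2.2 (lc r) r.1.2.1 (r.2.1.2.1 - r.1.2.1) t (x 0) (x 2)) fun r hr => ?_
    exact adm_add (adm_mul (adm_TH 2) (adm_mul (adm_dLN _ (hG.ht_ok r hr).2.1 0)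
      (adm_mul (hlc r hr) (adm_LN _ box_pos 2))))
      (adm_mul (adm_TH 3) (adm_mul (adm_rat _) (adm_PL (hG.ht_ok r hr).2.1 0)))

theorem hasDerivAt_F0 {r : Rule} (hr : 0 < r.2.2.2) (t x y z : ℝ) :
    HasDerivAt (fun s => F0 r t s y z) (-(TH 2 t * (deriv (LN r.2.2.1 r.2.2) x *
      (la r * deriv (LN r.1.1.1 (0, 1 / 4)) y + lc r * deriv (LN r.1.2.1 (0, 1 / 4)) z)))) x :=
  (((hasDerivAt_LN _ hr x).mul_const _).const_mul _).const_sub _

theorem hasDerivAt_FH (h : Seg) (l : ℝ) (c e : ℚ) (t x y : ℝ) :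
    HasDerivAt (fun s => FH h l c e t x s)
      (TH 2 t * (deriv (LN h.1 h) x * (l * deriv (LN c (0, 1 / 4)) y))) y :=
  ((((hasDerivAt_LN _ box_pos y).const_mul _).const_mul _).const_mul _).add_const _

theorem div_UU (hG : Good rules halts) (t : ℝ) (x : Fin 3 → ℝ) :
    ∑ j, dx j (UU rules halts j) t x = 0 := by
  have h0 : dx 0 (U0 rules halts) t x = _ :=
    ((hasDerivAt_listSum (f := fun r s => F0 r t s (x 1) (x 2)) fun r hr =>
      hasDerivAt_F0 (hG.ht_ok r hr).2.1 t (x 0) (x 1) (x 2)).add_const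
      (halts.map fun h => G0 h t (x 1) (x 2)).sum).deriv
  have h1 : dx 1 (U1 rules) t x = _ :=
    (hasDerivAt_listSum (l := rules)
      (f := fun r s => FH r.2.2 (la r) r.1.1.1 (r.2.1.1.1 - r.1.1.1) t (x 0) s) fun r _ =>
      hasDerivAt_FH _ _ _ _ t (x 0) (x 1)).deriv
  have h2 : dx 2 (U2 rules) t x = _ :=
    (hasDerivAt_listSum (l := rules)
      (f := fun r s => FH r.2.2 (lc r) r.1.2.1 (r.2.1.2.1 - r.1.2.1) t (x 0) s) fun r _ =>
      hasDerivAt_FH _ _ _ _ t (x 0) (x 2)).deriv
  rw [Fin.sum_univ_three]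
  change dx 0 (U0 rules halts) t x + dx 1 (U1 rules) t x + dx 2 (U2 rules) t x = 0
  rw [h0, h1, h2, ← List.sum_map_add, ← List.sum_map_add]
  exact sum_none fun r _ => by ring

theorem UU_idle {n : ℕ} {t : ℝ} (ht : t ∈ slot (5 * n + 0)) (i : Fin 3) (x : Fin 3 → ℝ) :
    UU rules halts i t x = 0 := by
  have h1 : TH 1 t = 0 := TH_off (by norm_num) (by norm_num) (by norm_num) ht
  have h2 : TH 2 t = 0 := TH_off (by norm_num) (by norm_num) (by norm_num) ht
  have h3 : TH 3 t = 0 := TH_off (by norm_num) (by norm_num) (by norm_num) ht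
  have h4 : TH 4 t = 0 := TH_off (by norm_num) (by norm_num) (by norm_num) ht
  fin_cases i
  · change U0 rules halts t x = 0
    rw [U0, sum_none fun r _ => by simp [F0, h1, h2, h4], sum_none fun r _ => by simp [G0, h1],
      add_zero]
  · exact sum_none fun r _ => by simp [FH, h2, h3]
  · exact sum_none fun r _ => by simp [FH, h2, h3]

theorem theta0_eq (t : ℝ) : theta0 t = th 0 t := by simp [theta0, th]

theorem vel_eq {m : ℕ} (hm : 0 ≠ m) {t : ℝ} (ht : t ∈ slot m) (β γ : ℚ) (x : Fin 3 → ℝ) :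
    (fun i => vel (UU rules halts) β γ i t x) =
      ![U0 rules halts t x, U1 rules t x, U2 rules t x] := by
  funext i
  rw [vel, theta0_eq, th_zero hm ht, zero_mul, add_zero]
  fin_cases i <;> rfl

theorem drives_UU (hG : Good rules halts) (β γ : ℚ) :
    Drives (fun t x i => vel (UU rules halts) β γ i t x) rules halts β γ th Th where
  clock := clock_th
  load t ht x := by
    funext i
    rw [vel, UU_idle (n := 0) ht, theta0_eq, zero_add]
    fin_cases i <;> simp
  idle n t ht x := by
    funext i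
    rw [vel, UU_idle (n := n + 1) ht, theta0_eq, th_zero (by omega) ht]
    simp
  lift n t ht r hr p hp x := by
    have h1 : TH 1 t = _ := TH_on (by norm_num) ht
    have h2 : TH 2 t = 0 := TH_off (by norm_num) (by norm_num) (by norm_num) ht
    have h3 : TH 3 t = 0 := TH_off (by norm_num) (by norm_num) (by norm_num) ht
    have h4 : TH 4 t = 0 := TH_off (by norm_num) (by norm_num) (by norm_num) ht
    rw [vel_eq (by omega) ht]
    congr 1
    · change (rules.map fun r => F0 r t x p.1 p.2).sum + (halts.map fun h => G0 h t p.1 p.2).sum = _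
      rw [sum_single hG.dom_sep hr fun b hb h => by
          simp [F0, h2, h4, rect_out (hG.dom_ok r hr) (hG.dom_ok b hb) (h.elim (·.1) (·.2)) hp],
        sum_none fun h hh => by
          simp [G0, rect_out (hG.dom_ok r hr) (hG.halt_ok h hh) (hG.dom_halt_sep r hr h hh).1 hp]]
      simp [F0, h1, h2, h4, rect_in (hG.dom_ok r hr) hp]
    · congr 1
      · exact sum_none fun r _ => by simp [FH, h2, h3]
      · congr 1
        exact sum_none fun r _ => by simp [FH, h2, h3]
  liftH n t ht r hr p hp x := by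
    have h1 : TH 1 t = _ := TH_on (by norm_num) ht
    have h2 : TH 2 t = 0 := TH_off (by norm_num) (by norm_num) (by norm_num) ht
    have h3 : TH 3 t = 0 := TH_off (by norm_num) (by norm_num) (by norm_num) ht
    have h4 : TH 4 t = 0 := TH_off (by norm_num) (by norm_num) (by norm_num) ht
    rw [vel_eq (by omega) ht]
    congr 1
    · change (rules.map fun r => F0 r t x p.1 p.2).sum + (halts.map fun h => G0 h t p.1 p.2).sum = _
      rw [sum_single hG.halt_sep hr fun b hb h => by
          simp [G0, rect_out (hG.halt_ok r hr) (hG.halt_ok b hb) (h.elim (·.1) (·.2)) hp],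
        sum_none fun b hb => by
          simp [F0, h2, h4,
            rect_out (hG.halt_ok r hr) (hG.dom_ok b hb) (hG.dom_halt_sep b hb r hr).2 hp]]
      simp [G0, h1, rect_in (hG.halt_ok r hr) hp]
    · congr 1
      · exact sum_none fun r _ => by simp [FH, h2, h3]
      · congr 1
        exact sum_none fun r _ => by simp [FH, h2, h3]
  scale n t ht r hr y hy z hz := by
    have h1 : TH 1 t = 0 := TH_off (by norm_num) (by norm_num) (by norm_num) ht
    have h2 : TH 2 t = _ := TH_on (by norm_num) ht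
    have h3 : TH 3 t = 0 := TH_off (by norm_num) (by norm_num) (by norm_num) ht
    have h4 : TH 4 t = 0 := TH_off (by norm_num) (by norm_num) (by norm_num) ht
    have hs := LN_self (hG.ht_ok r hr)
    have ho : ∀ b ∈ rules, (SegSep r.2.2 b.2.2 ∧ SegSep b.2.2 r.2.2) ∨
        (SegSep b.2.2 r.2.2 ∧ SegSep r.2.2 b.2.2) →
        LN b.2.2.1 b.2.2 r.2.2.1 = 0 ∧ deriv (LN b.2.2.1 b.2.2) r.2.2.1 = 0 := fun b hb h =>
      LN_out (hG.ht_ok r hr) (hG.ht_ok b hb) (h.elim (·.1) (·.2)) _
    rw [vel_eq (by omega) ht]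
    congr 1
    · change (rules.map fun b => F0 b t r.2.2.1 y z).sum + (halts.map fun h => G0 h t y z).sum = _
      rw [sum_single hG.ht_sep hr fun b hb h => by simp [F0, h1, h4, (ho b hb h).1],
        sum_none fun h hh => by simp [G0, h1]]
      simp [F0, h1, h4, hs.1]
    · congr 1
      · change (rules.map fun b =>
          FH b.2.2 (la b) b.1.1.1 (b.2.1.1.1 - b.1.1.1) t r.2.2.1 y).sum = _
        rw [sum_single hG.ht_sep hr fun b hb h => by simp [FH, h3, (ho b hb h).2]]
        rw [FH, h2, h3, hs.2, LN_box _ hy, la]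
        ring
      · congr 1
        change (rules.map fun b =>
          FH b.2.2 (lc b) b.1.2.1 (b.2.1.2.1 - b.1.2.1) t r.2.2.1 z).sum = _
        rw [sum_single hG.ht_sep hr fun b hb h => by simp [FH, h3, (ho b hb h).2]]
        rw [FH, h2, h3, hs.2, LN_box _ hz, lc]
        ring
  move n t ht r hr y z := by
    have h1 : TH 1 t = 0 := TH_off (by norm_num) (by norm_num) (by norm_num) ht
    have h2 : TH 2 t = 0 := TH_off (by norm_num) (by norm_num) (by norm_num) ht
    have h3 : TH 3 t = _ := TH_on (by norm_num) ht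
    have h4 : TH 4 t = 0 := TH_off (by norm_num) (by norm_num) (by norm_num) ht
    have hs := PL_in (hG.ht_ok r hr) (inSeg_left (hG.ht_ok r hr))
    have ho : ∀ b ∈ rules, (SegSep r.2.2 b.2.2 ∧ SegSep b.2.2 r.2.2) ∨
        (SegSep b.2.2 r.2.2 ∧ SegSep r.2.2 b.2.2) → PL b.2.2 r.2.2.1 = 0 := fun b hb h =>
      PL_out (hG.ht_ok r hr) (hG.ht_ok b hb) (h.elim (·.1) (·.2)) (inSeg_left (hG.ht_ok r hr))
    rw [vel_eq (by omega) ht]
    congr 1
    · change (rules.map fun b => F0 b t r.2.2.1 y z).sum + (halts.map fun h => G0 h t y z).sum = _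
      rw [sum_none fun b _ => by simp [F0, h1, h2, h4], sum_none fun h _ => by simp [G0, h1],
        add_zero]
    · congr 1
      · change (rules.map fun b =>
          FH b.2.2 (la b) b.1.1.1 (b.2.1.1.1 - b.1.1.1) t r.2.2.1 y).sum = _
        rw [sum_single hG.ht_sep hr fun b hb h => by simp [FH, h2, ho b hb h]]
        rw [FH, h2, h3, hs]
        ring
      · congr 1
        change (rules.map fun b =>
          FH b.2.2 (lc b) b.1.2.1 (b.2.1.2.1 - b.1.2.1) t r.2.2.1 z).sum = _
        rw [sum_single hG.ht_sep hr fun b hb h => by simp [FH, h2, ho b hb h]]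
        rw [FH, h2, h3, hs]
        ring
  drop n t ht r hr p hp x := by
    have h1 : TH 1 t = 0 := TH_off (by norm_num) (by norm_num) (by norm_num) ht
    have h2 : TH 2 t = 0 := TH_off (by norm_num) (by norm_num) (by norm_num) ht
    have h3 : TH 3 t = 0 := TH_off (by norm_num) (by norm_num) (by norm_num) ht
    have h4 : TH 4 t = _ := TH_on (by norm_num) ht
    rw [vel_eq (by omega) ht]
    congr 1
    · change (rules.map fun r => F0 r t x p.1 p.2).sum + (halts.map fun h => G0 h t p.1 p.2).sum = _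
      rw [sum_single hG.img_sep hr fun b hb h => by
          simp [F0, h1, h2, rect_out (hG.img_ok r hr) (hG.img_ok b hb) (h.elim (·.1) (·.2)) hp],
        sum_none fun h _ => by simp [G0, h1]]
      simp [F0, h1, h2, h4, rect_in (hG.img_ok r hr) hp]
    · congr 1
      · exact sum_none fun r _ => by simp [FH, h2, h3]
      · congr 1
        exact sum_none fun r _ => by simp [FH, h2, h3]

theorem drive : DriveStmt := fun rules halts hG =>
  ⟨UU rules halts, adm_UU hG, div_UU hG,
    fun i t ht x => UU_idle (n := 0) (by simpa [slot] using ht) i x, th, Th, drives_UU hG⟩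

end Vale.Agent.P113E
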