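import Mathlib.Analysis.ODE.ExistUnique
import Mathlib.Analysis.Calculus.MeanValue
import Mathlib.Analysis.Calculus.ContDiff.Comp
import Mathlib.Algebra.Ring.Periodic
import Mathlib.Algebra.Order.Floor.Ring

/-!
P113: trajectories of a `C¹` field which is periodic in space exist for all times and are unique.
-/

open Set Function
open scoped NNReal Topology

namespace Vale.Agent.P113E

theorem per_int {α : Type*} {g : (Fin 3 → ℝ) → α} (hg : ∀ x j, g (x + Pi.single j 1) = g x)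
    (x : Fin 3 → ℝ) (k : Fin 3 → ℤ) : g (x + fun j => (k j : ℝ)) = g x := by
  have h1 : ∀ j, Periodic g (Pi.single j 1) := fun j x => hg x j
  have h2 : (fun j => (k j : ℝ)) = k 0 • Pi.single (0 : Fin 3) (1 : ℝ) +
      k 1 • Pi.single (1 : Fin 3) (1 : ℝ) + k 2 • Pi.single (2 : Fin 3) (1 : ℝ) := by
    funext j
    fin_cases j <;> simp
  rw [h2]
  exact ((((h1 0).zsmul (k 0)).add_period ((h1 1).zsmul (k 1))).add_period ((h1 2).zsmul (k 2))) x

theorem per_reduce {α : Type*} {g : (Fin 3 → ℝ) → α} (hg : ∀ x j, g (x + Pi.single j 1) = g x)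
    (x : Fin 3 → ℝ) : ∃ y ∈ Icc (0 : Fin 3 → ℝ) 1, g x = g y := by
  refine ⟨fun j => Int.fract (x j), ⟨fun j => Int.fract_nonneg _, fun j => (Int.fract_lt_one _).le⟩,
    ?_⟩
  rw [← per_int hg (fun j => Int.fract (x j)) (fun j => ⌊x j⌋)]
  congr 1
  funext j
  simp

theorem per_bound {E : Type*} [NormedAddCommGroup E] {g : ℝ → (Fin 3 → ℝ) → E}
    (hc : Continuous fun z : ℝ × (Fin 3 → ℝ) => g z.1 z.2)
    (hg : ∀ t x j, g t (x + Pi.single j 1) = g t x) (a b : ℝ) :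
    ∃ C : ℝ≥0, ∀ t ∈ Icc a b, ∀ x, ‖g t x‖ ≤ C := by
  obtain ⟨C, hC⟩ := ((isCompact_Icc (a := a) (b := b)).prod
    (isCompact_Icc (a := (0 : Fin 3 → ℝ)) (b := 1))).exists_bound_of_continuousOn hc.continuousOn
  refine ⟨C.toNNReal, fun t ht x => ?_⟩
  obtain ⟨y, hy, h⟩ := per_reduce (hg t) x
  rw [h]
  exact (hC (t, y) ⟨ht, hy⟩).trans (Real.le_coe_toNNReal C)

/-- A `C¹` field which is periodic in space. -/
structure Nice (u : ℝ → (Fin 3 → ℝ) → Fin 3 → ℝ) : Prop where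
  smooth : ContDiff ℝ 1 fun z : ℝ × (Fin 3 → ℝ) => u z.1 z.2
  per : ∀ t x j, u t (x + Pi.single j 1) = u t x

variable {u : ℝ → (Fin 3 → ℝ) → Fin 3 → ℝ}

theorem Nice.lipschitz (hu : Nice u) (a b : ℝ) :
    ∃ K : ℝ≥0, ∀ t ∈ Icc a b, LipschitzWith K (u t) := by
  have hd : ∀ t, Differentiable ℝ (u t) := fun t =>
    (hu.smooth.comp (contDiff_prodMk_right t)).differentiable one_ne_zero
  have hc : Continuous fun z : ℝ × (Fin 3 → ℝ) => fderiv ℝ (u z.1) z.2 := by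
    have h : ContDiff ℝ 0 fun z : ℝ × (Fin 3 → ℝ) => fderiv ℝ (u z.1) z.2 :=
      ContDiff.fderiv (f := fun (z : ℝ × (Fin 3 → ℝ)) => u z.1) (g := fun z => z.2) (m := 1)
        (hu.smooth.comp (f := fun w : (ℝ × (Fin 3 → ℝ)) × (Fin 3 → ℝ) => (w.1.1, w.2))
          (by fun_prop)) (by fun_prop) (by simp)
    exact h.continuous
  have hp : ∀ t x j, fderiv ℝ (u t) (x + Pi.single j 1) = fderiv ℝ (u t) x := by
    intro t x j
    have h1 : (fun y => u t (y + Pi.single j 1)) = u t := funext fun y => hu.per t y j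
    rw [← fderiv_comp_add_right, h1]
  obtain ⟨K, hK⟩ := per_bound (g := fun t x => fderiv ℝ (u t) x) hc hp a b
  exact ⟨K, fun t ht => lipschitzWith_of_nnnorm_fderiv_le (hd t) fun x => hK t ht x⟩

/-- Uniqueness on an interval. -/
theorem Nice.unique (hu : Nice u) {a b : ℝ} {X Y : ℝ → Fin 3 → ℝ}
    (hX : ContinuousOn X (Icc a b))
    (hX' : ∀ t ∈ Ico a b, HasDerivWithinAt X (u t (X t)) (Ici t) t)
    (hY : ContinuousOn Y (Icc a b))
    (hY' : ∀ t ∈ Ico a b, HasDerivWithinAt Y (u t (Y t)) (Ici t) t) (h : X a = Y a) :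
    EqOn X Y (Icc a b) := by
  obtain ⟨K, hK⟩ := hu.lipschitz a b
  exact ODE_solution_unique_of_mem_Icc_right (s := fun _ => univ)
    (fun t ht => (hK t (Ico_subset_Icc_self ht)).lipschitzOnWith) hX hX' (fun _ _ => mem_univ _)
    hY hY' (fun _ _ => mem_univ _) h

theorem Nice.exists_Icc (hu : Nice u) (x : Fin 3 → ℝ) (T : ℝ≥0) :
    ∃ X : ℝ → Fin 3 → ℝ, X 0 = x ∧
      ∀ t ∈ Icc (0 : ℝ) T, HasDerivWithinAt X (u t (X t)) (Icc (0 : ℝ) T) t := by
  obtain ⟨K, hK⟩ := hu.lipschitz 0 T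
  obtain ⟨L, hL⟩ := per_bound hu.smooth.continuous hu.per 0 T
  have h : IsPicardLindelof u (tmin := 0) (tmax := T) ⟨0, le_rfl, T.2⟩ x (L * T) 0 L K :=
    { lipschitzOnWith := fun t ht => (hK t ht).lipschitzOnWith
      continuousOn := fun y _ =>
        (hu.smooth.continuous.comp (Continuous.prodMk_left y)).continuousOn
      norm_le := fun t ht y _ => hL t ht y
      mul_max_le := by simp }
  exact h.exists_eq_forall_mem_Icc_hasDerivWithinAt₀

theorem right_of_Icc {X : ℝ → Fin 3 → ℝ} {v : Fin 3 → ℝ} {a b t : ℝ} (ht : t ∈ Ico a b)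
    (h : HasDerivWithinAt X v (Icc a b) t) : HasDerivWithinAt X v (Ici t) t :=
  h.mono_of_mem_nhdsWithin (Icc_mem_nhdsGE_of_mem ht)

/-- Existence for all nonnegative times. -/
theorem Nice.exists_traj (hu : Nice u) (x : Fin 3 → ℝ) :
    ∃ X : ℝ → Fin 3 → ℝ, X 0 = x ∧ ∀ t, 0 ≤ t → HasDerivWithinAt X (u t (X t)) (Ici 0) t := by
  choose Z hZ0 hZ using fun n : ℕ => hu.exists_Icc x (n : ℝ≥0)
  have hcomp : ∀ m n : ℕ, m ≤ n → EqOn (Z m) (Z n) (Icc (0 : ℝ) m) := by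
    intro m n hmn
    have hsub : Icc (0 : ℝ) m ⊆ Icc (0 : ℝ) n := Icc_subset_Icc_right (by exact_mod_cast hmn)
    refine hu.unique (fun t ht => (hZ m t ht).continuousWithinAt)
      (fun t ht => right_of_Icc ht (hZ m t (Ico_subset_Icc_self ht)))
      (fun t ht => ((hZ n t (hsub ht)).continuousWithinAt).mono hsub)
      (fun t ht => right_of_Icc ht ((hZ n t (hsub (Ico_subset_Icc_self ht))).mono hsub))
      (by rw [hZ0, hZ0])
  have hX : ∀ n : ℕ, EqOn (fun t => Z (⌊t⌋₊ + 1) t) (Z n) (Icc (0 : ℝ) n) := by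
    intro n t ht
    rcases le_total (⌊t⌋₊ + 1) n with h | h
    · exact hcomp _ _ h ⟨ht.1, by push_cast; exact (Nat.lt_floor_add_one t).le⟩
    · exact (hcomp _ _ h ht).symm
  refine ⟨fun t => Z (⌊t⌋₊ + 1) t, hZ0 _, fun t ht => ?_⟩
  have hlt : t < ((⌊t⌋₊ + 1 : ℕ) : ℝ) := by push_cast; exact Nat.lt_floor_add_one t
  have hmem : t ∈ Icc (0 : ℝ) ((⌊t⌋₊ + 1 : ℕ) : ℝ) := ⟨ht, hlt.le⟩
  have h1 := (hZ (⌊t⌋₊ + 1) t hmem).congr_of_mem (fun s hs => hX _ hs) hmem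
  refine h1.mono_of_mem_nhdsWithin ?_
  rw [← Ici_inter_Iic]
  exact inter_mem_nhdsWithin _ (Iic_mem_nhds hlt)

/-- A trajectory agrees on an interval with every explicit solution that starts at its point. -/
theorem Nice.eq_explicit (hu : Nice u) {X Y : ℝ → Fin 3 → ℝ}
    (hX : ∀ t, 0 ≤ t → HasDerivWithinAt X (u t (X t)) (Ici 0) t) {a b : ℝ} (ha : 0 ≤ a)
    (hY : ∀ t ∈ Icc a b, HasDerivAt Y (u t (Y t)) t) (h : X a = Y a) :
    EqOn X Y (Icc a b) :=
  hu.unique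
    (fun t ht => (hX t (ha.trans ht.1)).continuousWithinAt.mono fun _ hs => ha.trans hs.1)
    (fun t ht => (hX t (ha.trans ht.1)).mono fun _ hs => (ha.trans ht.1).trans hs)
    (fun t ht => (hY t ht).continuousAt.continuousWithinAt)
    (fun t ht => (hY t (Ico_subset_Icc_self ht)).hasDerivWithinAt) h

/-- Two trajectories from the same point agree for all nonnegative times. -/
theorem Nice.traj_unique (hu : Nice u) {X Y : ℝ → Fin 3 → ℝ}
    (hX : ∀ t, 0 ≤ t → HasDerivWithinAt X (u t (X t)) (Ici 0) t)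
    (hY : ∀ t, 0 ≤ t → HasDerivWithinAt Y (u t (Y t)) (Ici 0) t) (h : X 0 = Y 0) :
    ∀ t, 0 ≤ t → X t = Y t := fun t ht =>
  hu.unique (a := 0) (b := t)
    (fun s hs => (hX s hs.1).continuousWithinAt.mono fun _ hr => hr.1)
    (fun s hs => (hX s hs.1).mono fun _ hr => hs.1.trans hr)
    (fun s hs => (hY s hs.1).continuousWithinAt.mono fun _ hr => hr.1)
    (fun s hs => (hY s hs.1).mono fun _ hr => hs.1.trans hr) h ⟨ht, le_rfl⟩

end Vale.Agent.P113E
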