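import Vale.Agent.P113B.Calc
import Vale.Agent.P113E.Traj

/-!
P113: the plateau functions and the clocks.
-/

open Set Function Filter Topology
open scoped ContDiff

noncomputable section

namespace Vale.Agent.P113E

open Vale.Agent.P113

/-- The bump `y ^ k * π₄ (2 y / d - (2 a / d - 1))`; the second factor is `κ` on `[a, a + d]`
and vanishes outside `(a - d, a + 2 d)`. -/
def plateau (k : ℕ) (s : Seg) : Bump := (k, Sum.inr 4, 2 / s.2, 2 * s.1 / s.2 - 1)

/-- The bump `ρ (10 t - (2 k + 1))`, which vanishes outside `(k / 5, (k + 1) / 5)`. -/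
def pulse (k : ℕ) : Bump := (0, Sum.inl 0, 10, 2 * (k : ℚ) + 1)

theorem plateau_valid (k : ℕ) {s : Seg} (hs : 0 < s.2) : (plateau k s).Valid :=
  ⟨(div_pos two_pos hs).ne', by norm_num⟩

theorem pulse_valid (k : ℕ) : (pulse k).Valid := by
  change (10 : ℚ) ≠ 0
  norm_num

/-- The periodic plateau function of a segment. -/
def PL (s : Seg) (y : ℝ) : ℝ := kappa⁻¹ * per (plateau 0 s).eval y

/-- The periodization of `y - c` times the plateau function. -/
def LN (c : ℚ) (s : Seg) (y : ℝ) : ℝ := kappa⁻¹ * per (plateau 1 s).eval y - c * PL s y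

/-- The periodic speed of the clock number `k`. -/
def TH (k : ℕ) (t : ℝ) : ℝ := 10 * kappa⁻¹ * per (pulse k).eval t

/-- The speed of the clock of the slot `m`. -/
def th (m : ℕ) (t : ℝ) : ℝ := 10 * kappa⁻¹ * rho (10 * t - (2 * m + 1))

/-- The clock of the slot `m`. -/
def Th (m : ℕ) (t : ℝ) : ℝ := kappa⁻¹ * sigma (10 * t - (2 * m + 1))

/-- The plateau function before periodization. -/
def pl (s : Seg) (y : ℝ) : ℝ := kappa⁻¹ * piL 4 (2 / s.2 * y - (2 * s.1 / s.2 - 1))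

theorem clock_th (m : ℕ) : Clock (th m) (Th m) m where
  deriv t := by
    have h1 : HasDerivAt (fun t : ℝ => 10 * t - (2 * m + 1)) 10 t := by
      simpa using ((hasDerivAt_id t).const_mul (10 : ℝ)).sub_const (2 * (m : ℝ) + 1)
    exact (((hasDerivAt_sigma _).comp t h1).const_mul kappa⁻¹).congr_deriv (by unfold th; ring)
  start := by
    unfold Th
    rw [sigma_zero (by linarith), mul_zero]
  stop := by
    unfold Th
    rw [sigma_kappa (by linarith), inv_mul_cancel₀ kappa_pos.ne']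
  nonneg t := mul_nonneg (inv_pos.2 kappa_pos).le (sigma_nonneg _)
  le_one t := by
    unfold Th
    rw [inv_mul_le_iff₀ kappa_pos, mul_one]
    exact sigma_le _

theorem th_zero {m m' : ℕ} (h : m ≠ m') {t : ℝ} (ht : t ∈ slot m') : th m t = 0 := by
  unfold th
  rw [rho_zero, mul_zero]
  rcases lt_or_gt_of_ne h with h | h
  · have : (m : ℝ) + 1 ≤ m' := by exact_mod_cast h
    exact le_abs.2 (Or.inl (by linarith [ht.1]))
  · have : (m' : ℝ) + 1 ≤ m := by exact_mod_cast h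
    exact le_abs.2 (Or.inr (by linarith [ht.2]))

theorem pulse_eval (k : ℕ) (t : ℝ) : (pulse k).eval t = rho (10 * t - (2 * k + 1)) := by
  unfold pulse
  rw [Bump.eval_inl]
  simp

theorem TH_eq {k : ℕ} (hk : k ≤ 4) (n : ℕ) {t : ℝ} (ht : t ∈ Icc (n : ℝ) (n + 1)) :
    TH k t = th (5 * n + k) t := by
  have hk' : (k : ℝ) ≤ 4 := by exact_mod_cast hk
  have hk0 : (0 : ℝ) ≤ k := k.cast_nonneg
  unfold TH th
  have h1 : per (pulse k).eval t = per (pulse k).eval (t - n) := by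
    rw [← per_add_int _ (t - n) n]
    simp
  rw [h1, per_eq_self (lo := (k : ℝ) / 5) (hi := ((k : ℝ) + 1) / 5)
    (fun s hs => by rw [pulse_eval]; exact rho_zero (le_abs.2 (Or.inr (by linarith))))
    (fun s hs => by rw [pulse_eval]; exact rho_zero (le_abs.2 (Or.inl (by linarith))))
    (by linarith [ht.1]) (by linarith [ht.2]), pulse_eval]
  push_cast
  congr 2
  ring

theorem slot_sub {j : ℕ} (hj : j ≤ 4) (n : ℕ) {t : ℝ} (ht : t ∈ slot (5 * n + j)) :
    t ∈ Icc (n : ℝ) (n + 1) := by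
  have hj' : (j : ℝ) ≤ 4 := by exact_mod_cast hj
  have hj0 : (0 : ℝ) ≤ j := j.cast_nonneg
  have h1 := ht.1
  have h2 := ht.2
  push_cast at h1 h2
  constructor <;> linarith

theorem TH_on {j : ℕ} (hj : j ≤ 4) {n : ℕ} {t : ℝ} (ht : t ∈ slot (5 * n + j)) :
    TH j t = th (5 * n + j) t := TH_eq hj n (slot_sub hj n ht)

theorem TH_off {j k : ℕ} (hj : j ≤ 4) (hk : k ≤ 4) (h : k ≠ j) {n : ℕ} {t : ℝ}
    (ht : t ∈ slot (5 * n + j)) : TH k t = 0 := by
  rw [TH_eq hk n (slot_sub hj n ht)]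
  exact th_zero (by omega) ht

/-- The enlargement of the segment lies in `[-1/4, 1/2]`. -/
def Narrow (s : Seg) : Prop := 0 < s.2 ∧ s.1 + 2 * s.2 ≤ 1 / 2 ∧ -1 / 4 ≤ s.1 - s.2

theorem SegOk.narrow {s : Seg} (hs : SegOk s) : Narrow s :=
  ⟨hs.2.1, by linarith [hs.1, hs.2.1, hs.2.2], by linarith [hs.1, hs.2.1, hs.2.2]⟩

theorem narrow_box : Narrow (0, 1 / 4) := by
  unfold Narrow
  norm_num

theorem plateau_eval (k : ℕ) (s : Seg) (y : ℝ) :
    (plateau k s).eval y = y ^ k * piL 4 (2 / s.2 * y - (2 * s.1 / s.2 - 1)) := by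
  unfold plateau
  rw [Bump.eval_inr]
  push_cast
  rfl

theorem arg_le {a d y c : ℝ} (hd : 0 < d) (h : y ≤ a + c * d) :
    2 / d * y - (2 * a / d - 1) ≤ 2 * c + 1 := by
  have : 2 / d * y - (2 * a / d - 1) = 2 * (y - a) / d + 1 := by ring
  rw [this, add_le_add_iff_right, div_le_iff₀ hd]
  linarith

theorem le_arg {a d y c : ℝ} (hd : 0 < d) (h : a + c * d ≤ y) :
    2 * c + 1 ≤ 2 / d * y - (2 * a / d - 1) := by
  have : 2 / d * y - (2 * a / d - 1) = 2 * (y - a) / d + 1 := by ring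
  rw [this, add_le_add_iff_right, le_div_iff₀ hd]
  linarith

theorem per_plateau (k : ℕ) {s : Seg} (hs : Narrow s) {y : ℝ} (hy : y ∈ Ioo (-1 / 2 : ℝ) (3 / 4)) :
    kappa⁻¹ * per (plateau k s).eval y = y ^ k * pl s y := by
  have hd : (0 : ℝ) < s.2 := by exact_mod_cast hs.1
  have h1 : (s.1 : ℝ) + 2 * s.2 ≤ 1 / 2 := by
    have := (Rat.cast_le (K := ℝ)).2 hs.2.1
    push_cast at this
    exact this
  have h2 : (-1 / 4 : ℝ) ≤ s.1 - s.2 := by
    have := (Rat.cast_le (K := ℝ)).2 hs.2.2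
    push_cast at this
    exact this
  rw [per_eq_self (lo := (s.1 : ℝ) - s.2) (hi := (s.1 : ℝ) + 2 * s.2)
    (fun z hz => by
      rw [plateau_eval, piL_zero_left (by norm_num)
        ((arg_le (c := -1) hd (by linarith)).trans (by norm_num)), mul_zero])
    (fun z hz => by
      rw [plateau_eval, piL_zero_right (by norm_num)
        (le_trans (by norm_num) (le_arg (c := 2) hd hz)), mul_zero])
    (by linarith [hy.1]) (by linarith [hy.2]), plateau_eval, pl]
  ring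

theorem PL_eq {s : Seg} (hs : Narrow s) {y : ℝ} (hy : y ∈ Ioo (-1 / 2 : ℝ) (3 / 4)) :
    PL s y = pl s y := by
  rw [PL, per_plateau 0 hs hy, pow_zero, one_mul]

theorem LN_eq (c : ℚ) {s : Seg} (hs : Narrow s) {y : ℝ} (hy : y ∈ Ioo (-1 / 2 : ℝ) (3 / 4)) :
    LN c s y = (y - c) * pl s y := by
  rw [LN, per_plateau 1 hs hy, PL_eq hs hy]
  ring

theorem pl_one {s : Seg} (hs : 0 < s.2) {y : ℝ} (h1 : (s.1 : ℝ) ≤ y) (h2 : y ≤ s.1 + s.2) :
    pl s y = 1 := by
  have hd : (0 : ℝ) < s.2 := by exact_mod_cast hs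
  rw [pl, piL_kappa (le_trans (by norm_num) (le_arg (c := 0) hd (by linarith)))
    ((arg_le (c := 1) hd (by linarith)).trans (by norm_num)), inv_mul_cancel₀ kappa_pos.ne']

theorem hasDerivAt_pl (s : Seg) (y : ℝ) : HasDerivAt (pl s)
    (kappa⁻¹ * ((rho (2 / s.2 * y - (2 * s.1 / s.2 - 1)) -
      rho (2 / s.2 * y - (2 * s.1 / s.2 - 1) - 4)) * (2 / s.2))) y := by
  have h1 : HasDerivAt (fun y : ℝ => 2 / (s.2 : ℝ) * y - (2 * s.1 / s.2 - 1)) (2 / s.2) y := by
    simpa using ((hasDerivAt_id y).const_mul (2 / (s.2 : ℝ))).sub_const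
      (2 * (s.1 : ℝ) / s.2 - 1)
  exact ((hasDerivAt_piL 4 _).comp y h1).const_mul kappa⁻¹

theorem pl_zero {s : Seg} (hs : 0 < s.2) {y : ℝ}
    (h : y ≤ (s.1 : ℝ) - s.2 ∨ (s.1 : ℝ) + 2 * s.2 ≤ y) : pl s y = 0 ∧ HasDerivAt (pl s) 0 y := by
  have hd : (0 : ℝ) < s.2 := by exact_mod_cast hs
  rcases h with h | h
  · have h1 := arg_le (c := -1) hd (a := s.1) (y := y) (by linarith)
    refine ⟨by rw [pl, piL_zero_left (by norm_num) (by linarith), mul_zero], ?_⟩
    refine (hasDerivAt_pl s y).congr_deriv ?_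
    rw [rho_zero (le_abs.2 (Or.inr (by linarith))), rho_zero (le_abs.2 (Or.inr (by linarith)))]
    ring
  · have h1 := le_arg (c := 2) hd h
    refine ⟨by rw [pl, piL_zero_right (by norm_num) (by linarith), mul_zero], ?_⟩
    refine (hasDerivAt_pl s y).congr_deriv ?_
    rw [rho_zero (le_abs.2 (Or.inl (by linarith))), rho_zero (le_abs.2 (Or.inl (by linarith)))]
    ring

theorem deriv_LN (c : ℚ) {s : Seg} (hs : Narrow s) {y e : ℝ} (hy : y ∈ Ioo (-1 / 2 : ℝ) (3 / 4))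
    (he : HasDerivAt (pl s) e y) : deriv (LN c s) y = pl s y + (y - c) * e := by
  have h1 : LN c s =ᶠ[𝓝 y] fun z => (z - c) * pl s z := by
    filter_upwards [Ioo_mem_nhds hy.1 hy.2] with z hz using LN_eq c hs hz
  rw [h1.deriv_eq]
  exact ((((hasDerivAt_id' y).sub_const (c : ℝ)).fun_mul he).congr_deriv (by ring)).deriv

theorem small_mem {y : ℝ} (hy : y ∈ Icc (0 : ℝ) (1 / 8)) : y ∈ Ioo (-1 / 2 : ℝ) (3 / 4) :=
  ⟨by linarith [hy.1], by linarith [hy.2]⟩

theorem inSeg_left {s : Seg} (hs : SegOk s) : InSeg s s.1 := ⟨le_rfl, by linarith [hs.2.1]⟩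

theorem PL_in {s : Seg} (hs : SegOk s) {y : ℚ} (hy : InSeg s y) : PL s y = 1 := by
  rw [PL_eq hs.narrow (small_mem (inSeg_mem hs hy))]
  exact pl_one hs.2.1 (by exact_mod_cast hy.1) (by exact_mod_cast hy.2)

theorem far_of_sep {s s' : Seg} (h : SegSep s s') {y : ℚ} (hy : InSeg s y) :
    (y : ℝ) ≤ (s'.1 : ℝ) - s'.2 ∨ (s'.1 : ℝ) + 2 * s'.2 ≤ y := by
  rcases h with h | h
  · exact Or.inl (by exact_mod_cast hy.2.trans h)
  · exact Or.inr (by exact_mod_cast h.trans hy.1)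

theorem PL_out {s s' : Seg} (hs : SegOk s) (hs' : SegOk s') (h : SegSep s s') {y : ℚ}
    (hy : InSeg s y) : PL s' y = 0 := by
  rw [PL_eq hs'.narrow (small_mem (inSeg_mem hs hy))]
  exact (pl_zero hs'.2.1 (far_of_sep h hy)).1

theorem rect_in {r : Rect} (hr : RectOk r) {p : ℚ × ℚ} (hp : InRect r p) :
    PL r.1 p.1 * PL r.2 p.2 = 1 := by
  rw [PL_in hr.1 hp.1, PL_in hr.2 hp.2, one_mul]

theorem rect_out {r r' : Rect} (hr : RectOk r) (hr' : RectOk r') (h : RectSep r r') {p : ℚ × ℚ}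
    (hp : InRect r p) : PL r'.1 p.1 * PL r'.2 p.2 = 0 := by
  rcases h with h | h
  · rw [PL_out hr.1 hr'.1 h hp.1, zero_mul]
  · rw [PL_out hr.2 hr'.2 h hp.2, mul_zero]

theorem LN_self {s : Seg} (hs : SegOk s) : LN s.1 s s.1 = 0 ∧ deriv (LN s.1 s) s.1 = 1 := by
  have hm := small_mem (inSeg_mem hs (inSeg_left hs))
  refine ⟨by rw [LN_eq _ hs.narrow hm, sub_self, zero_mul], ?_⟩
  rw [deriv_LN _ hs.narrow hm (hasDerivAt_pl _ _), sub_self, zero_mul, add_zero]
  exact pl_one hs.2.1 le_rfl (by exact_mod_cast (inSeg_left hs).2)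

theorem LN_out {s s' : Seg} (hs : SegOk s) (hs' : SegOk s') (h : SegSep s s') (c : ℚ) :
    LN c s' s.1 = 0 ∧ deriv (LN c s') s.1 = 0 := by
  have hm := small_mem (inSeg_mem hs (inSeg_left hs))
  have h0 := pl_zero hs'.2.1 (far_of_sep h (inSeg_left hs))
  exact ⟨by rw [LN_eq _ hs'.narrow hm, h0.1, mul_zero],
    by rw [deriv_LN _ hs'.narrow hm h0.2, h0.1, mul_zero, add_zero]⟩

theorem LN_box (c : ℚ) {y : ℝ} (hy : y ∈ Icc (0 : ℝ) (1 / 4)) : LN c (0, 1 / 4) y = y - c := by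
  rw [LN_eq _ narrow_box ⟨by linarith [hy.1], by linarith [hy.2]⟩,
    pl_one (by norm_num) (by simpa using hy.1) (by push_cast; linarith [hy.2]), mul_one]

theorem contDiff_PL {s : Seg} (hs : 0 < s.2) : ContDiff ℝ ∞ (PL s) :=
  contDiff_const.mul (contDiff_perBump (plateau_valid 0 hs))

theorem contDiff_LN (c : ℚ) {s : Seg} (hs : 0 < s.2) : ContDiff ℝ ∞ (LN c s) :=
  (contDiff_const.mul (contDiff_perBump (plateau_valid 1 hs))).sub
    (contDiff_const.mul (contDiff_PL hs))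

theorem hasDerivAt_LN (c : ℚ) {s : Seg} (hs : 0 < s.2) (y : ℝ) :
    HasDerivAt (LN c s) (deriv (LN c s) y) y :=
  ((contDiff_LN c hs).differentiable (by simp) y).hasDerivAt

theorem sum_single {α : Type*} {R : α → α → Prop} {l : List α} (hl : l.Pairwise R) {a : α}
    (ha : a ∈ l) {f : α → ℝ} (h : ∀ b ∈ l, R a b ∨ R b a → f b = 0) : (l.map f).sum = f a := by
  induction l with
  | nil => exact absurd ha List.not_mem_nil
  | cons c l ih =>
    rw [List.pairwise_cons] at hl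
    rw [List.map_cons, List.sum_cons]
    rcases List.mem_cons.1 ha with rfl | ha'
    · rw [List.sum_eq_zero, add_zero]
      intro x hx
      obtain ⟨b, hb, rfl⟩ := List.mem_map.1 hx
      exact h b (List.mem_cons_of_mem _ hb) (Or.inl (hl.1 b hb))
    · rw [h c List.mem_cons_self (Or.inr (hl.1 a ha')), zero_add]
      exact ih hl.2 ha' fun b hb => h b (List.mem_cons_of_mem _ hb)

theorem sum_none {α : Type*} {l : List α} {f : α → ℝ} (h : ∀ b ∈ l, f b = 0) :
    (l.map f).sum = 0 := by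
  refine List.sum_eq_zero fun x hx => ?_
  obtain ⟨b, hb, rfl⟩ := List.mem_map.1 hx
  exact h b hb

theorem hasDerivAt_listSum {α : Type*} {l : List α} {f : α → ℝ → ℝ} {f' : α → ℝ} {s : ℝ}
    (h : ∀ a ∈ l, HasDerivAt (f a) (f' a) s) :
    HasDerivAt (fun s => (l.map fun a => f a s).sum) (l.map f').sum s := by
  induction l with
  | nil => simpa using hasDerivAt_const s (0 : ℝ)
  | cons a l ih =>
    simp only [List.map_cons, List.sum_cons]
    exact (h a List.mem_cons_self).add (ih fun b hb => h b (List.mem_cons_of_mem _ hb))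

end Vale.Agent.P113E
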